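import Mathlib
import Vale.Agent.P134P.Regularity
import Vale.Agent.P134P.Profile
import Vale.Agent.P134P.Energy
import Vale.Agent.P134P.Assembly

namespace Vale.Agent.Results.P134.PeriodicInAllButThree

open scoped RealInnerProductSpace

/-- A monotone bounded entire solution of the Allen-Cahn equation in dimension `m + 3` that is
periodic in `m` independent horizontal directions is one-dimensional. -/
theorem result : ∀ (m : ℕ) (u : EuclideanSpace ℝ (Fin (m + 3)) → ℝ),
    ContDiff ℝ 2 u →
    (∀ x, Laplacian.laplacian u x = u x ^ 3 - u x) →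
    (∀ x, |u x| ≤ 1) →
    (∀ x, 0 < fderiv ℝ u x (EuclideanSpace.single (Fin.last (m + 2)) 1)) →
    (∃ τ : Fin m → EuclideanSpace ℝ (Fin (m + 3)), LinearIndependent ℝ τ ∧
      (∀ j, τ j (Fin.last (m + 2)) = 0) ∧ ∀ j x, u (x + τ j) = u x) →
    ∃ (e : EuclideanSpace ℝ (Fin (m + 3))) (h : ℝ → ℝ), ‖e‖ = 1 ∧ ∀ x, u x = h ⟪e, x⟫ := by
  intro m u hu heq hbd hmono hper
  exact Vale.Agent.P134P.assembly m (fun b => Vale.Agent.P134P.regularity b)
    (fun b => Vale.Agent.P134P.profile b) (fun b => Vale.Agent.P134P.front b)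
    (fun b => Vale.Agent.P134P.energy b) u hu heq hbd hmono hper

end Vale.Agent.Results.P134.PeriodicInAllButThree
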